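import Vale.Agent.P022.H914.CrossD

/-!
P022-CFT, block [D]: the places part of the crossing relation.
-/

open NumberField IsDedekindDomain
open scoped Pointwise

set_option linter.unusedSectionVars false

namespace Vale.Agent.P022.H914

/-- the integer valued valuation (`0` at `0`) -/
noncomputable def ord {K : Type*} [Field K] [NumberField K] (v : HeightOneSpectrum (𝓞 K))
    (x : K) : ℤ := -(v.valuation K x).log

section basic

variable {K : Type*} [Field K] [NumberField K] (v : HeightOneSpectrum (𝓞 K))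

theorem ord_mul {x y : K} (hx : x ≠ 0) (hy : y ≠ 0) : ord v (x * y) = ord v x + ord v y := by
  unfold ord
  rw [map_mul, WithZero.log_mul ((Valuation.ne_zero_iff _).2 hx) ((Valuation.ne_zero_iff _).2 hy)]
  ring

@[simp] theorem ord_one : ord v (1 : K) = 0 := by simp [ord]

@[simp] theorem ord_zero : ord v (0 : K) = 0 := by simp [ord]

theorem ord_inv (x : K) : ord v x⁻¹ = -ord v x := by simp [ord, WithZero.log_inv]

theorem ord_div {x y : K} (hx : x ≠ 0) (hy : y ≠ 0) : ord v (x / y) = ord v x - ord v y := by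
  rw [div_eq_mul_inv, ord_mul v hx (inv_ne_zero hy), ord_inv, sub_eq_add_neg]

theorem ord_pow (x : K) (n : ℕ) : ord v (x ^ n) = n * ord v x := by
  simp [ord, WithZero.log_pow]

theorem ord_zpow (x : K) (n : ℤ) : ord v (x ^ n) = n * ord v x := by
  simp [ord, WithZero.log_zpow]

end basic

section ext

variable {K M : Type*} [Field K] [NumberField K] [Field M] [NumberField M] [Algebra K M]
  (v : HeightOneSpectrum (𝓞 K)) (P : HeightOneSpectrum (𝓞 M)) [P.asIdeal.LiesOver v.asIdeal]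

theorem ord_algebraMap' (x : K) :
    ord P (algebraMap K M x) = v.asIdeal.ramificationIdx' P.asIdeal * ord v x := by
  unfold ord
  rw [← HeightOneSpectrum.valuation_liesOver M v P x, WithZero.log_pow]
  simp

theorem ord_algebraMap (he : v.asIdeal.ramificationIdx' P.asIdeal = 1) (x : K) :
    ord P (algebraMap K M x) = ord v x := by
  rw [ord_algebraMap' v P, he]; simp

end ext

section gal

variable {M : Type*} [Field M] [NumberField M] (P : HeightOneSpectrum (𝓞 M))

theorem mem_pow_of_map {g : 𝓞 M ≃+* 𝓞 M} (h : ∀ x ∈ P.asIdeal, g x ∈ P.asIdeal) (k : ℕ)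
    {x : 𝓞 M} (hx : x ∈ P.asIdeal ^ k) : g x ∈ P.asIdeal ^ k := by
  have h1 : Ideal.map (g : 𝓞 M →+* 𝓞 M) P.asIdeal ≤ P.asIdeal := by
    rw [Ideal.map_le_iff_le_comap]; exact h
  have h2 : Ideal.map (g : 𝓞 M →+* 𝓞 M) (P.asIdeal ^ k) ≤ P.asIdeal ^ k := by
    rw [Ideal.map_pow]; exact Ideal.pow_right_mono h1 k
  exact h2 (Ideal.mem_map_of_mem _ hx)

theorem symm_of_map {g : 𝓞 M ≃+* 𝓞 M} (h : ∀ x ∈ P.asIdeal, g x ∈ P.asIdeal) :
    ∀ x ∈ P.asIdeal, g.symm x ∈ P.asIdeal := by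
  intro x hx
  have hmax : P.asIdeal.IsMaximal := P.isMaximal
  have hc : P.asIdeal = Ideal.comap (g : 𝓞 M →+* 𝓞 M) P.asIdeal := by
    refine hmax.eq_of_le ?_ h
    intro ht
    have : (1 : 𝓞 M) ∈ Ideal.comap (g : 𝓞 M →+* 𝓞 M) P.asIdeal := by rw [ht]; trivial
    rw [Ideal.mem_comap, map_one] at this
    exact hmax.ne_top ((Ideal.eq_top_iff_one _).2 this)
  rw [hc, Ideal.mem_comap]
  simpa using hx

theorem intVal_le {g : 𝓞 M ≃+* 𝓞 M} (h : ∀ x ∈ P.asIdeal, g x ∈ P.asIdeal) (x : 𝓞 M) :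
    P.intValuation (g x) ≤ P.intValuation x := by
  rcases eq_or_ne x 0 with rfl | hx
  · simp
  rw [HeightOneSpectrum.intValuation_eq_exp_neg_multiplicity P hx]
  rw [HeightOneSpectrum.intValuation_le_pow_iff_mem]
  apply mem_pow_of_map P h
  rw [← HeightOneSpectrum.intValuation_le_pow_iff_mem,
    ← HeightOneSpectrum.intValuation_eq_exp_neg_multiplicity P hx]

theorem intVal_eq {g : 𝓞 M ≃+* 𝓞 M} (h : ∀ x ∈ P.asIdeal, g x ∈ P.asIdeal) (x : 𝓞 M) :
    P.intValuation (g x) = P.intValuation x := by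
  apply le_antisymm (intVal_le P h x)
  have := intVal_le P (symm_of_map P h) (g x)
  simpa using this

theorem val_eq (g : M ≃+* M)
    (h : ∀ x ∈ P.asIdeal, RingOfIntegers.mapRingEquiv g x ∈ P.asIdeal) (x : M) :
    P.valuation M (g x) = P.valuation M x := by
  obtain ⟨a, b, hb, rfl⟩ := IsFractionRing.div_surjective (A := 𝓞 M) x
  have e : ∀ c : 𝓞 M, g (algebraMap (𝓞 M) M c)
      = algebraMap (𝓞 M) M (RingOfIntegers.mapRingEquiv g c) := fun c => rfl
  rw [map_div₀, map_div₀, map_div₀, e, e, HeightOneSpectrum.valuation_of_algebraMap,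
    HeightOneSpectrum.valuation_of_algebraMap, HeightOneSpectrum.valuation_of_algebraMap,
    HeightOneSpectrum.valuation_of_algebraMap, intVal_eq P h, intVal_eq P h]

theorem ord_eq (g : M ≃+* M)
    (h : ∀ x ∈ P.asIdeal, RingOfIntegers.mapRingEquiv g x ∈ P.asIdeal) (x : M) :
    ord P (g x) = ord P x := by
  unfold ord; rw [val_eq P g h]

end gal

section main

variable {K M : Type*} [Field K] [NumberField K] [Field M] [NumberField M] [Algebra K M]

/-- a Frobenius at `P` (any exponent `q > 0`) keeps the valuation of `P` -/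
theorem ord_frob (P : HeightOneSpectrum (𝓞 M)) {g : M ≃ₐ[K] M} {q : ℕ} (hq : q ≠ 0)
    (hg : ∀ x : 𝓞 M, g • x - x ^ q ∈ P.asIdeal) (x : M) : ord P (g x) = ord P x := by
  refine ord_eq P (g : M ≃+* M) (fun y hy => ?_) x
  have h1 := hg y
  have h2 : y ^ q ∈ P.asIdeal := P.asIdeal.pow_mem_of_mem hy q (Nat.pos_of_ne_zero hq)
  have h3 := P.asIdeal.add_mem h1 h2
  rw [sub_add_cancel] at h3
  exact h3

/-- **[D]**: `v` unramified in `M`, `σ^a τ^b` a Frobenius at one `P ∣ v`, `τ y / y = σ z / z`,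
`α = ∏_{i<n} σ^i y`, `β = ∏_{j<N} τ^j z` in `K`: `n N ∣ N a v(α) + n b v(β)`. -/
theorem crossD (v : HeightOneSpectrum (𝓞 K)) (P : HeightOneSpectrum (𝓞 M))
    [P.asIdeal.LiesOver v.asIdeal] (he : v.asIdeal.ramificationIdx' P.asIdeal = 1)
    (s t : M ≃ₐ[K] M) (hst : s * t = t * s) {n N : ℕ} {a b : ℤ} {q : ℕ} (hq : q ≠ 0)
    (hF : ∀ x : 𝓞 M, (s ^ a * t ^ b) • x - x ^ q ∈ P.asIdeal)
    {y z : M} (hy : y ≠ 0) (hz : z ≠ 0) (hyz : t y * z = s z * y) {α β : K}
    (hα : algebraMap K M α = ∏ i ∈ Finset.range n, (s ^ i) y)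
    (hβ : algebraMap K M β = ∏ j ∈ Finset.range N, (t ^ j) z) :
    (n : ℤ) * N ∣ N * a * ord v α + n * b * ord v β := by
  let φ : (M ≃ₐ[K] M) →* MulAut Mˣ :=
    { toFun := fun g => Units.mapEquiv (g : M ≃* M)
      map_one' := by ext x; rfl
      map_mul' := fun g h => by ext x; rfl }
  have hφ : ∀ (g : M ≃ₐ[K] M) (u : Mˣ), ((φ g u : Mˣ) : M) = g (u : M) := fun g u => rfl
  have hcoe : ∀ (g : M ≃ₐ[K] M) (m : ℕ) (u : Mˣ),
      ((nrm (φ g) m u : Mˣ) : M) = ∏ i ∈ Finset.range m, (g ^ i) (u : M) := by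
    intro g m u
    unfold nrm
    rw [Units.coe_prod]
    refine Finset.prod_congr rfl fun i _ => ?_
    rw [← map_pow, hφ]
  have hA : ((nrm (φ s) n (Units.mk0 y hy) : Mˣ) : M) = algebraMap K M α := by
    rw [hcoe, hα]; rfl
  have hB : ((nrm (φ t) N (Units.mk0 z hz) : Mˣ) : M) = algebraMap K M β := by
    rw [hcoe, hβ]; rfl
  have hfix : ∀ (g : M ≃ₐ[K] M) (u : Mˣ) (c : K), (u : M) = algebraMap K M c → φ g u = u := by
    intro g u c hu
    ext; rw [hφ, hu, AlgEquiv.commutes]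
  have := cross (φ s) (φ t) (fun u : Mˣ => ord P (u : M))
    (fun x y => by rw [Units.val_mul, ord_mul P x.ne_zero y.ne_zero])
    (by rw [← map_mul, ← map_mul, hst]) (n := n) (N := N) (a := a) (b := b)
    (fun x => by
      rw [← map_zpow, ← map_zpow, ← map_mul, hφ]
      exact ord_frob P hq hF _)
    (y := Units.mk0 y hy) (z := Units.mk0 z hz)
    (by ext; rw [Units.val_mul, Units.val_mul, hφ, hφ]; exact hyz)
    (hfix _ _ α hA) (hfix _ _ α hA) (hfix _ _ β hB) (hfix _ _ β hB)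
  rw [hA, hB, ord_algebraMap v P he, ord_algebraMap v P he] at this
  exact this

end main

end Vale.Agent.P022.H914
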