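import Vale.Agent.P022.H567.Cft
import Vale.Agent.P022.H914.Places

/-!
P022-CFT, blocks [DIV] and [VALX].
-/

open NumberField IsDedekindDomain Finset

namespace Vale.Agent.P022.H914

open Vale.Agent.P022.C

theorem ordv_eq_ord {K : Type} [Field K] [NumberField K] (v : HeightOneSpectrum (𝓞 K)) (x : K) :
    ordv v x = ord v x := rfl

theorem DIV : DIVStmt := by
  intro n n' a b hn hn' f g A B h hA hB hf hg
  -- potential on `ℕ × ℕ`
  set H : ℕ → ℕ → ℤ := fun i j => ∑ k ∈ range i, f k 0 + ∑ l ∈ range j, g i l with hH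
  have g2 : ∀ i j, H i (j + 1) - H i j = g i j := by
    intro i j; simp only [hH, sum_range_succ]; ring
  have g1 : ∀ i j, H (i + 1) j - H i j = f i j := by
    intro i j
    induction j with
    | zero => simp only [hH, sum_range_succ, range_zero, sum_empty]; ring
    | succ j ih =>
      have e1 := g2 (i + 1) j; have e2 := g2 i j; have e3 := h i j
      linarith
  have m1 : ∀ i j, H (i + n) j - H i j = A := by
    intro i j
    have tele : ∀ m : ℕ, H (i + m) j - H i j = ∑ k ∈ range m, f (i + k) j := by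
      intro m
      induction m with
      | zero => simp
      | succ m ih =>
        rw [sum_range_succ, ← ih]
        have := g1 (i + m) j
        rw [← add_assoc]; linarith
    rw [tele, hA]
  have m2 : ∀ i j, H i (j + n') - H i j = B := by
    intro i j
    have tele : ∀ m : ℕ, H i (j + m) - H i j = ∑ k ∈ range m, g i (j + k) := by
      intro m
      induction m with
      | zero => simp
      | succ m ih =>
        rw [sum_range_succ, ← ih]
        have := g2 i (j + m)
        rw [← add_assoc]; linarith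
    rw [tele, hB]
  have m1' : ∀ (k i j : ℕ), H (i + k * n) j - H i j = k * A := by
    intro k
    induction k with
    | zero => simp
    | succ k ih =>
      intro i j
      have e1 := ih i j; have e2 := m1 (i + k * n) j
      have : i + (k + 1) * n = i + k * n + n := by ring
      rw [this]; push_cast; linarith
  have m2' : ∀ (k i j : ℕ), H i (j + k * n') - H i j = k * B := by
    intro k
    induction k with
    | zero => simp
    | succ k ih =>
      intro i j
      have e1 := ih i j; have e2 := m2 i (j + k * n')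
      have : j + (k + 1) * n' = j + k * n' + n' := by ring
      rw [this]; push_cast; linarith
  have c : ∀ i j, H (i + a) (j + b) - H i j = H a b - H 0 0 := by
    have c1 : ∀ i j, H (i + 1 + a) (j + b) - H (i + 1) j = H (i + a) (j + b) - H i j := by
      intro i j
      have e1 := g1 (i + a) (j + b); have e2 := g1 i j
      rw [hf] at e1
      have : i + a + 1 = i + 1 + a := by ring
      rw [this] at e1; linarith
    have c2 : ∀ i j, H (i + a) (j + 1 + b) - H i (j + 1) = H (i + a) (j + b) - H i j := by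
      intro i j
      have e1 := g2 (i + a) (j + b); have e2 := g2 i j
      rw [hg] at e1
      have : j + b + 1 = j + 1 + b := by ring
      rw [this] at e1; linarith
    intro i j
    induction i with
    | zero =>
      induction j with
      | zero => simp
      | succ j ih => rw [c2, ih]
    | succ i ih => rw [c1, ih]
  have m3' : ∀ (k i j : ℕ), H (i + k * a) (j + k * b) - H i j = k * (H a b - H 0 0) := by
    intro k
    induction k with
    | zero => simp
    | succ k ih =>
      intro i j
      have e1 := ih i j; have e2 := c (i + k * a) (j + k * b)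
      have t1 : i + (k + 1) * a = i + k * a + a := by ring
      have t2 : j + (k + 1) * b = j + k * b + b := by ring
      rw [t1, t2]; push_cast; linarith
  refine ⟨H a b - H 0 0, ?_⟩
  have e3 := m3' (n * n') 0 0
  have e1 := m1' (n' * a) 0 (n * n' * b)
  have e2 := m2' (n * b) 0 0
  have t1 : 0 + n' * a * n = 0 + n * n' * a := by ring
  have t2 : 0 + n * b * n' = 0 + n * n' * b := by ring
  rw [t1] at e1; rw [t2] at e2
  simp only [zero_add] at e1 e2 e3
  push_cast at e1 e2 e3 ⊢
  linarith

/-- the relation without `Cross`: `s` and `t` commute -/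
theorem valx {K E : Type} [Field K] [NumberField K] [Field E] [NumberField E] [Algebra K E]
    {s t : E ≃ₐ[K] E} (hst : s * t = t * s) {n n' : ℕ} {x y : K} (hx : x ≠ 0) (hy : y ≠ 0)
    {γ δ : E} (h : t γ * δ = γ * s δ)
    (hγ : ∏ i ∈ range n, (s ^ i) γ = algebraMap K E x)
    (hδ : ∏ i ∈ range n', (t ^ i) δ = algebraMap K E y)
    (hn : 0 < n) (hn' : 0 < n') (w : HeightOneSpectrum (𝓞 E)) {a b q : ℕ} (hq : q ≠ 0)
    (hF : Frob (s ^ a * t ^ b) q w.asIdeal) :
    ((n : ℤ) * n') ∣ a * n' * ord w (algebraMap K E x) + b * n * ord w (algebraMap K E y) := by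
  have hγ0 : γ ≠ 0 := by
    rintro rfl
    have h0 : ∏ i ∈ range n, (s ^ i) (0 : E) = 0 := prod_eq_zero (mem_range.2 hn) (map_zero _)
    rw [h0] at hγ
    exact hx ((map_eq_zero _).1 hγ.symm)
  have hδ0 : δ ≠ 0 := by
    rintro rfl
    have h0 : ∏ i ∈ range n', (t ^ i) (0 : E) = 0 := prod_eq_zero (mem_range.2 hn') (map_zero _)
    rw [h0] at hδ
    exact hy ((map_eq_zero _).1 hδ.symm)
  let φ : (E ≃ₐ[K] E) →* MulAut Eˣ :=
    { toFun := fun g => Units.mapEquiv (g : E ≃* E)
      map_one' := by ext x; rfl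
      map_mul' := fun g h => by ext x; rfl }
  have hφ : ∀ (g : E ≃ₐ[K] E) (u : Eˣ), ((φ g u : Eˣ) : E) = g (u : E) := fun g u => rfl
  have hcoe : ∀ (g : E ≃ₐ[K] E) (m : ℕ) (u : Eˣ),
      ((nrm (φ g) m u : Eˣ) : E) = ∏ i ∈ Finset.range m, (g ^ i) (u : E) := by
    intro g m u
    unfold nrm
    rw [Units.coe_prod]
    refine Finset.prod_congr rfl fun i _ => ?_
    rw [← map_pow, hφ]
  have hA : ((nrm (φ s) n (Units.mk0 γ hγ0) : Eˣ) : E) = algebraMap K E x := by
    rw [hcoe, ← hγ]; rfl
  have hB : ((nrm (φ t) n' (Units.mk0 δ hδ0) : Eˣ) : E) = algebraMap K E y := by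
    rw [hcoe, ← hδ]; rfl
  have hfix : ∀ (g : E ≃ₐ[K] E) (u : Eˣ) (c : K), (u : E) = algebraMap K E c → φ g u = u := by
    intro g u c hu
    ext; rw [hφ, hu, AlgEquiv.commutes]
  have := cross (φ s) (φ t) (fun u : Eˣ => ord w (u : E))
    (fun x y => by rw [Units.val_mul, ord_mul w x.ne_zero y.ne_zero])
    (by rw [← map_mul, ← map_mul, hst]) (n := n) (N := n') (a := a) (b := b)
    (fun x => by
      rw [← map_zpow, ← map_zpow, ← map_mul, hφ, zpow_natCast, zpow_natCast]
      exact ord_frob w hq hF _)
    (y := Units.mk0 γ hγ0) (z := Units.mk0 δ hδ0)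
    (by ext; rw [Units.val_mul, Units.val_mul, hφ, hφ]; change t γ * δ = s δ * γ
        rw [h, mul_comm])
    (hfix _ _ x hA) (hfix _ _ x hA) (hfix _ _ y hB) (hfix _ _ y hB)
  rw [hA, hB] at this
  convert this using 1; ring

/-- a Frobenius of exponent `0` does not exist (`P` is not the whole ring) -/
theorem Frob.ne_zero {K E : Type} [Field K] [Field E] [Algebra K E] {s : E ≃ₐ[K] E} {q : ℕ}
    {P : Ideal (𝓞 E)} (hP : P ≠ ⊤) (h : Frob s q P) : q ≠ 0 := by
  rintro rfl
  have := h 0
  rw [smul_zero, pow_zero, zero_sub] at this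
  exact hP ((Ideal.eq_top_iff_one _).2 (by simpa using P.neg_mem this))

theorem Cross.comm {K L L' E : Type} [Field K] [Field L] [Field L'] [Field E]
    [Algebra K L] [Algebra K L'] [Algebra K E] [Algebra L E] [Algebra L' E]
    [IsScalarTower K L E] [IsScalarTower K L' E] {n n' : ℕ} {σ : L ≃ₐ[K] L}
    {σ' : L' ≃ₐ[K] L'} {s s' : E ≃ₐ[K] E} (c : Cross K n n' σ σ' s s') : s * s' = s' * s := by
  have key : (s' * s)⁻¹ * (s * s') = 1 := by
    apply c.ext
    · intro x
      rw [AlgEquiv.mul_apply, AlgEquiv.mul_apply, c.s'L, c.sL]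
      have : (s' * s) (algebraMap L E x) = algebraMap L E (σ x) := by
        rw [AlgEquiv.mul_apply, c.sL, c.s'L]
      rw [← this, ← AlgEquiv.mul_apply, inv_mul_cancel]; rfl
    · intro x
      rw [AlgEquiv.mul_apply, AlgEquiv.mul_apply, c.s'L', c.sL']
      have : (s' * s) (algebraMap L' E x) = algebraMap L' E (σ' x) := by
        rw [AlgEquiv.mul_apply, c.sL', c.s'L']
      rw [← this, ← AlgEquiv.mul_apply, inv_mul_cancel]; rfl
  exact (inv_mul_eq_one.1 key).symm

theorem VALX : VALXStmt := by
  intro K L L' E _ _ _ _ _ _ _ _ _ _ _ _ _ _ _ n n' σ σ' s s' hc x y hx hy γ δ h hγ hδ w a b q hF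
  exact valx (Cross.comm hc) hx hy h hγ hδ hc.cyc.pos hc.cyc'.pos w
    (Frob.ne_zero w.isPrime.ne_top hF) hF

end Vale.Agent.P022.H914
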