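import Mathlib

/-!
P022-CFT, block [D]: the crossing relation, letter free.

`M` is the unit group of the big field, `s`, `t` commuting automorphisms (the
generators `σ`, `τ`), `w : M → ℤ` a valuation, invariant under `s ^ a * t ^ b`
(Frobenius).  If `t y / y = s z / z`, `α = ∏_{i<n} s^i y` is fixed by `t` and `s`,
`β = ∏_{j<N} t^j z` is fixed by `s` and `t`, then `n N ∣ N a w(α) + n b w(β)`.
-/

namespace Vale.Agent.P022.H914

open Finset

/-- A potential on `ℤ × ℤ`... in one variable at a time: the sum of `f` over `n` steps. -/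
theorem pot_exists (Y Z : ℤ → ℤ → ℤ)
    (h : ∀ i j, Y i (j + 1) - Y i j = Z (i + 1) j - Z i j) :
    ∃ F : ℤ → ℤ → ℤ, (∀ i j, F (i + 1) j - F i j = Y i j) ∧
      ∀ i j, F i (j + 1) - F i j = Z i j := by
  -- one-variable primitives
  have prim : ∀ f : ℤ → ℤ, ∃ g : ℤ → ℤ, g 0 = 0 ∧ ∀ i, g (i + 1) - g i = f i := by
    intro f
    refine ⟨fun i => ∑ k ∈ Ico (0 : ℤ) i, f k - ∑ k ∈ Ico i (0 : ℤ), f k, by simp, ?_⟩
    intro i
    rcases le_or_gt 0 i with hi | hi
    · have h1 : Ico (i + 1) (0 : ℤ) = ∅ := Ico_eq_empty (by omega)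
      have h2 : Ico i (0 : ℤ) = ∅ := Ico_eq_empty (by omega)
      have h3 : Ico (0 : ℤ) (i + 1) = insert i (Ico 0 i) := by
        ext x; simp only [mem_Ico, mem_insert]; omega
      simp only [h1, h2, h3, sum_empty, sub_zero]
      rw [sum_insert (by simp)]; ring
    · have h1 : Ico (0 : ℤ) (i + 1) = ∅ := Ico_eq_empty (by omega)
      have h2 : Ico (0 : ℤ) i = ∅ := Ico_eq_empty (by omega)
      have h3 : Ico i (0 : ℤ) = insert i (Ico (i + 1) 0) := by
        ext x; simp only [mem_Ico, mem_insert]; omega
      simp only [h1, h2, h3, sum_empty, zero_sub]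
      rw [sum_insert (by simp)]; ring
  obtain ⟨g, -, hg⟩ := prim (fun j => Z 0 j)
  choose f hf0 hf using fun j => prim (fun i => Y i j)
  refine ⟨fun i j => f j i + g j, fun i j => by simpa using hf j i, fun i j => ?_⟩
  -- `D i = f (j+1) i - f j i - (Z i j - Z 0 j)` is constant in `i`, zero at `0`
  have hD : ∀ i : ℤ, f (j + 1) i - f j i = Z i j - Z 0 j := by
    intro i
    induction i using Int.induction_on with
    | zero => simp [hf0]
    | succ k ih =>
      have h1 := hf (j + 1) k; have h2 := hf j k; have h3 := h k j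
      linarith
    | pred k ih =>
      have h1 := hf (j + 1) (-k - 1); have h2 := hf j (-k - 1); have h3 := h (-k - 1) j
      simp only [sub_add_cancel] at h1 h2 h3
      linarith
  have := hD i; have h4 := hg j
  linarith

theorem cross_pot (F : ℤ → ℤ → ℤ) (n N a b A B c : ℤ)
    (h1 : ∀ i j, F (i + n) j - F i j = A) (h2 : ∀ i j, F i (j + N) - F i j = B)
    (h3 : ∀ i j, F (i + a) (j + b) - F i j = c) :
    N * a * A + n * b * B = n * N * c := by
  have m1 : ∀ (k i j : ℤ), F (i + k * n) j - F i j = k * A := by
    intro k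
    induction k using Int.induction_on with
    | zero => simp
    | succ k ih =>
      intro i j
      have e1 := ih i j; have e2 := h1 (i + k * n) j
      have : i + ((k : ℤ) + 1) * n = i + k * n + n := by ring
      rw [this]; linarith
    | pred k ih =>
      intro i j
      have e1 := ih i j; have e2 := h1 (i + (-k - 1) * n) j
      have : i + (-(k : ℤ) - 1) * n + n = i + -k * n := by ring
      rw [this] at e2; linarith
  have m2 : ∀ (k i j : ℤ), F i (j + k * N) - F i j = k * B := by
    intro k
    induction k using Int.induction_on with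
    | zero => simp
    | succ k ih =>
      intro i j
      have e1 := ih i j; have e2 := h2 i (j + k * N)
      have : j + ((k : ℤ) + 1) * N = j + k * N + N := by ring
      rw [this]; linarith
    | pred k ih =>
      intro i j
      have e1 := ih i j; have e2 := h2 i (j + (-k - 1) * N)
      have : j + (-(k : ℤ) - 1) * N + N = j + -k * N := by ring
      rw [this] at e2; linarith
  have m3 : ∀ (k i j : ℤ), F (i + k * a) (j + k * b) - F i j = k * c := by
    intro k
    induction k using Int.induction_on with
    | zero => simp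
    | succ k ih =>
      intro i j
      have e1 := ih i j; have e2 := h3 (i + k * a) (j + k * b)
      have t1 : i + ((k : ℤ) + 1) * a = i + k * a + a := by ring
      have t2 : j + ((k : ℤ) + 1) * b = j + k * b + b := by ring
      rw [t1, t2]; linarith
    | pred k ih =>
      intro i j
      have e1 := ih i j; have e2 := h3 (i + (-k - 1) * a) (j + (-k - 1) * b)
      have t1 : i + (-(k : ℤ) - 1) * a + a = i + -k * a := by ring
      have t2 : j + (-(k : ℤ) - 1) * b + b = j + -k * b := by ring
      rw [t1, t2] at e2; linarith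
  have e3 := m3 (n * N) 0 0
  have e1 := m1 (N * a) 0 (n * N * b)
  have e2 := m2 (n * b) 0 0
  have t1 : (0 : ℤ) + N * a * n = 0 + n * N * a := by ring
  have t2 : (0 : ℤ) + n * b * N = 0 + n * N * b := by ring
  rw [t1] at e1; rw [t2] at e2
  simp only [zero_add] at e1 e2 e3
  linarith

section grp

variable {M : Type*} [CommGroup M] (s t : MulAut M) (w : M → ℤ)

/-- `N_σ`: the product of the first `n` conjugates. -/
def nrm (n : ℕ) (y : M) : M := ∏ i ∈ range n, (s ^ i) y

theorem cross (hw : ∀ x y, w (x * y) = w x + w y) (hst : s * t = t * s)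
    {n N : ℕ} {a b : ℤ} (hinv : ∀ x, w ((s ^ a * t ^ b) x) = w x)
    {y z : M} (hyz : t y * z = s z * y)
    (hα : t (nrm s n y) = nrm s n y) (hα' : s (nrm s n y) = nrm s n y)
    (hβ : s (nrm t N z) = nrm t N z) (hβ' : t (nrm t N z) = nrm t N z) :
    (n : ℤ) * N ∣ N * a * w (nrm s n y) + n * b * w (nrm t N z) := by
  have hc : Commute s t := hst
  have w1 : w 1 = 0 := by have := hw 1 1; simp at this; exact this
  have hwp : ∀ (m : ℕ) (f : ℕ → M), w (∏ i ∈ range m, f i) = ∑ i ∈ range m, w (f i) := by
    intro m f
    induction m with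
    | zero => simpa using w1
    | succ m ih => rw [prod_range_succ, sum_range_succ, hw, ih]
  set Y : ℤ → ℤ → ℤ := fun i j => w ((s ^ i * t ^ j) y) with hY
  set Z : ℤ → ℤ → ℤ := fun i j => w ((s ^ i * t ^ j) z) with hZ
  have key : ∀ i j : ℤ, Y i (j + 1) - Y i j = Z (i + 1) j - Z i j := by
    intro i j
    have h1 : (s ^ i * t ^ (j + 1)) y * (s ^ i * t ^ j) z
        = (s ^ (i + 1) * t ^ j) z * (s ^ i * t ^ j) y := by
      have e1 : (s ^ i * t ^ (j + 1)) y = (s ^ i * t ^ j) (t y) := by
        rw [zpow_add_one, ← mul_assoc]; rfl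
      have e2 : (s ^ (i + 1) * t ^ j) z = (s ^ i * t ^ j) (s z) := by
        have : s ^ (i + 1) * t ^ j = s ^ i * t ^ j * s := by
          rw [zpow_add_one, mul_assoc, mul_assoc, (hc.zpow_right j).eq]
        rw [this]; rfl
      rw [e1, e2, ← map_mul, ← map_mul, hyz]
    have h2 := congrArg w h1
    rw [hw, hw] at h2
    simp only [hY, hZ]
    linarith
  obtain ⟨F, hF1, hF2⟩ := pot_exists Y Z key
  have hfixst : ∀ {x : M}, s x = x → t x = x → ∀ i j : ℤ, (s ^ i * t ^ j) x = x := by
    intro x hs ht i j
    have z1 : ∀ (u : MulAut M), u x = x → ∀ k : ℤ, (u ^ k) x = x := by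
      intro u hu k
      have : u ∈ MulAction.stabilizer (MulAut M) x := hu
      exact (MulAction.stabilizer (MulAut M) x).zpow_mem this k
    have e2 := z1 t ht j
    have e1 := z1 s hs i
    change (s ^ i) ((t ^ j) x) = x
    rw [e2, e1]
  have g1 : ∀ i j, F (i + n) j - F i j = w (nrm s n y) := by
    intro i j
    have tele : ∀ m : ℕ, F (i + m) j - F i j = ∑ k ∈ range m, Y (i + k) j := by
      intro m
      induction m with
      | zero => simp
      | succ m ih =>
        rw [sum_range_succ, ← ih]
        have := hF1 (i + m) j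
        push_cast
        rw [← add_assoc]; linarith
    rw [tele n, ← hfixst hα' hα i j]
    unfold nrm
    rw [map_prod, hwp]
    refine sum_congr rfl fun k _ => ?_
    simp only [hY]
    congr 1
    have : s ^ (i + (k : ℤ)) * t ^ j = s ^ i * t ^ j * s ^ k := by
      rw [zpow_add, mul_assoc, mul_assoc, zpow_natCast, ((hc.pow_left k).zpow_right j).eq]
    rw [this]; rfl
  have g2 : ∀ i j, F i (j + N) - F i j = w (nrm t N z) := by
    intro i j
    have tele : ∀ m : ℕ, F i (j + m) - F i j = ∑ k ∈ range m, Z i (j + k) := by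
      intro m
      induction m with
      | zero => simp
      | succ m ih =>
        rw [sum_range_succ, ← ih]
        have := hF2 i (j + m)
        push_cast
        rw [← add_assoc]; linarith
    rw [tele N, ← hfixst hβ hβ' i j]
    unfold nrm
    rw [map_prod, hwp]
    refine sum_congr rfl fun k _ => ?_
    simp only [hZ]
    congr 1
    have : s ^ i * t ^ (j + (k : ℤ)) = s ^ i * t ^ j * t ^ k := by
      rw [zpow_add, mul_assoc, zpow_natCast]
    rw [this]; rfl
  have hYp : ∀ i j, Y (i + a) (j + b) = Y i j := by
    intro i j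
    simp only [hY]
    have : s ^ (i + a) * t ^ (j + b) = s ^ a * t ^ b * (s ^ i * t ^ j) := by
      have h1 : t ^ b * s ^ i = s ^ i * t ^ b := (hc.zpow_zpow i b).eq.symm
      rw [add_comm i a, add_comm j b, zpow_add, zpow_add, mul_assoc, mul_assoc,
        ← mul_assoc (t ^ b), h1, mul_assoc]
    rw [this, MulAut.mul_apply, hinv]
  have hZp : ∀ i j, Z (i + a) (j + b) = Z i j := by
    intro i j
    simp only [hZ]
    have : s ^ (i + a) * t ^ (j + b) = s ^ a * t ^ b * (s ^ i * t ^ j) := by
      have h1 : t ^ b * s ^ i = s ^ i * t ^ b := (hc.zpow_zpow i b).eq.symm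
      rw [add_comm i a, add_comm j b, zpow_add, zpow_add, mul_assoc, mul_assoc,
        ← mul_assoc (t ^ b), h1, mul_assoc]
    rw [this, MulAut.mul_apply, hinv]
  have g3 : ∀ i j, F (i + a) (j + b) - F i j = F a b - F 0 0 := by
    have c1 : ∀ i j, F (i + 1 + a) (j + b) - F (i + 1) j = F (i + a) (j + b) - F i j := by
      intro i j
      have e1 := hF1 (i + a) (j + b); have e2 := hF1 i j
      rw [hYp] at e1
      have : i + a + 1 = i + 1 + a := by ring
      rw [this] at e1; linarith
    have c2 : ∀ i j, F (i + a) (j + 1 + b) - F i (j + 1) = F (i + a) (j + b) - F i j := by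
      intro i j
      have e1 := hF2 (i + a) (j + b); have e2 := hF2 i j
      rw [hZp] at e1
      have : j + b + 1 = j + 1 + b := by ring
      rw [this] at e1; linarith
    have d1 : ∀ i j, F (i + a) (j + b) - F i j = F a (j + b) - F 0 j := by
      intro i j
      induction i using Int.induction_on with
      | zero => simp
      | succ k ih => rw [c1, ih]
      | pred k ih =>
        have := c1 (-k - 1) j
        simp only [sub_add_cancel] at this
        rw [← this, ih]
    have d2 : ∀ j, F a (j + b) - F 0 j = F a b - F 0 0 := by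
      intro j
      induction j using Int.induction_on with
      | zero => simp
      | succ k ih => have := c2 0 k; simp only [zero_add] at this; rw [this, ih]
      | pred k ih =>
        have := c2 0 (-k - 1)
        simp only [sub_add_cancel, zero_add] at this
        rw [← this, ih]
    intro i j; rw [d1, d2]
  exact ⟨F a b - F 0 0, cross_pot F n N a b _ _ _ g1 g2 g3⟩

end grp

end Vale.Agent.P022.H914
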